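import Vale.Agent.P092RG.Crd

/-!
P092, rank one (helper32): the explicit formula for the pairing on the unipotent group when the
long root has multiplicity at most one.
-/

set_option linter.all false

open Matrix

namespace Vale.Agent.P092NT

open Vale.Agent.P092.H793.Re Vale.Agent.P092RG
open Vale.Agent.P092RK (Jy cc cc_pos Jy_mem br_Jy Jy_Jy ip_Jy ip_Jy_self skew_of_ort)

variable {n : ℕ} {G : Type} [Group G] [TopologicalSpace G]
variable {ρ : G →* SLn n} {w : Fin n → ℝ}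

theorem cmp_mul_left {k : ℝ} {A : Mat n} (hA : Wt w k A) (i : ℝ) (Y : Mat n) :
    cmp w i (A * Y) = A * cmp w (i - k) Y := by
  ext a b
  rw [cmp_apply, Matrix.mul_apply, Matrix.mul_apply]
  by_cases e : w a - w b = i
  · rw [if_pos e]
    refine Finset.sum_congr rfl fun c _ => ?_
    by_cases h0 : A a c = 0
    · rw [h0, zero_mul, zero_mul]
    · rw [cmp_apply, if_pos (by linarith [hA a c h0])]
  · rw [if_neg e]
    refine (Finset.sum_eq_zero fun c _ => ?_).symm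
    by_cases h0 : A a c = 0
    · rw [h0, zero_mul]
    · rw [cmp_apply, if_neg fun e' => e (by linarith [hA a c h0]), mul_zero]

theorem cmp_mul_right {k : ℝ} {A : Mat n} (hA : Wt w k A) (i : ℝ) (Y : Mat n) :
    cmp w i (Y * A) = cmp w (i - k) Y * A := by
  refine transpose_injective ?_
  rw [cmp_tr, transpose_mul, cmp_mul_left hA.tr, transpose_mul, cmp_tr]
  congr 2
  ring

theorem cmp_eq_zero {i : ℝ} {Y : Mat n} (hY : ∀ a b, Y a b ≠ 0 → w a - w b ≠ i) :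
    cmp w i Y = 0 := by
  ext a b
  rw [cmp_apply, Matrix.zero_apply]
  split_ifs with e
  · by_contra h0
    exact hY a b h0 e
  · rfl

variable (h : R1 ρ w)
include h

theorem cmp_Ad_N {u : G} (hu : u ∈ h.N) {j i : ℝ} {F : Mat n} (hF : Wt w j F) (hi : i ≤ j) :
    cmp w i (Ad ρ u F) = cmp w i F := by
  have h1 : SUp w ((ρ u).1 - 1) := hu
  have h2 : SUp w ((ρ u⁻¹).1 - 1) := h.N.inv_mem hu
  have h3 : Up w (ρ u⁻¹).1 := h.N_le_P (h.N.inv_mem hu)
  have e : Ad ρ u F = F + (((ρ u).1 - 1) * F * (ρ u⁻¹).1 + F * ((ρ u⁻¹).1 - 1)) := by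
    unfold Ad; noncomm_ring
  rw [e, cmp_add, cmp_eq_zero (Y := _ + _), add_zero]
  intro a b h0
  rcases add_ne h0 with h4 | h4
  · obtain ⟨c, h5, h6⟩ := mul_ne h4
    obtain ⟨d, h7, h8⟩ := mul_ne h5
    have := h1 a d h7
    have := hF d c h8
    have := h3 c b h6
    intro e; linarith
  · obtain ⟨c, h5, h6⟩ := mul_ne h4
    have := hF a c h5
    have := h2 c b h6
    intro e; linarith

theorem flip_ne {R : Mat n} {a b : Fin n} (h0 : Ad ρ h.w0 R a b ≠ 0) :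
    ∃ c d, R c d ≠ 0 ∧ w a - w b = -(w c - w d) := by
  rw [h.Ad_K h.w0_mem] at h0
  obtain ⟨d, h1, h2⟩ := mul_ne h0
  obtain ⟨c, h3, h4⟩ := mul_ne h1
  refine ⟨c, d, h4, ?_⟩
  have := h.w0_apply h3
  have := h.w0_apply (a := b) (b := d) h2
  linarith

theorem flip_ne' {R : Mat n} {a b : Fin n} (h0 : Ad ρ h.w0⁻¹ R a b ≠ 0) :
    ∃ c d, R c d ≠ 0 ∧ w a - w b = -(w c - w d) := by
  rw [h.Ad_K (h.K.inv_mem h.w0_mem), h.K_inv h.w0_mem, transpose_transpose] at h0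
  obtain ⟨d, h1, h2⟩ := mul_ne h0
  obtain ⟨c, h3, h4⟩ := mul_ne h1
  refine ⟨c, d, h4, ?_⟩
  have := h.w0_apply (a := c) (b := a) h3
  have := h.w0_apply h2
  linarith

theorem wt_flip {j : ℝ} {X : Mat n} (hX : Wt w j X) : Wt w (-j) (Ad ρ h.w0 X) := fun a b h0 => by
  obtain ⟨c, d, h1, h2⟩ := flip_ne h h0
  rw [h2, hX c d h1]

theorem wt_flip' {j : ℝ} {X : Mat n} (hX : Wt w j X) : Wt w (-j) (Ad ρ h.w0⁻¹ X) :=
  fun a b h0 => by
    obtain ⟨c, d, h1, h2⟩ := flip_ne' h h0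
    rw [h2, hX c d h1]

theorem cmp_flip (j : ℝ) (Y : Mat n) :
    cmp w (-j) (Ad ρ h.w0⁻¹ Y) = Ad ρ h.w0⁻¹ (cmp w j Y) := by
  have e : Ad ρ h.w0⁻¹ Y = Ad ρ h.w0⁻¹ (cmp w j Y) + Ad ρ h.w0⁻¹ (Y - cmp w j Y) := by
    rw [← Ad_add, add_sub_cancel]
  rw [e, cmp_add, (wt_flip' h (wt_cmp j Y)).cmp_self, cmp_eq_zero (i := -j), add_zero]
  intro a b h0 e'
  obtain ⟨c, d, h1, h2⟩ := flip_ne' h h0
  refine h1 ?_
  rw [Matrix.sub_apply, cmp_apply, if_pos (by linarith), sub_self]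

/-- the extreme block of the adjoint action measures the pairing -/
theorem low (j : ℕ) (hj : 0 < j) {E : Mat n} (hE : E ∈ h.g j) (hN : ∀ u ∈ h.N, Ad ρ u E = E)
    (g : G) : ip (cmp w (-j) (Ad ρ g E)) (cmp w (-j) (Ad ρ g E)) = h.bd g ^ (2 * j) * ip E E := by
  have j0 : (0 : ℝ) < j := by exact_mod_cast hj
  rcases h.bruhat' g with h1 | ⟨u, hu, s, m, hm, u', hu', rfl⟩
  · have : Up w (Ad ρ g E) := (Up.mul h1 (hE.2.up j0.le)).mul (up_inv h1)
    rw [this.cmp (by linarith), h.bd_P h1, ip_zero_left, zero_pow (by omega), zero_mul]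
  · have h1 := h.Ad_L_mem hm.2 hE
    have h2 := wt_flip h h1.2
    rw [h.bd_cell hu s hm hu', Ad_mul, hN u' hu', Ad_mul, Ad_mul, h.Ad_a s h1.2, Ad_mul, Ad_smul,
      Ad_smul, cmp_smul, cmp_Ad_N h hu h2 le_rfl, h2.cmp_self, ip_smul_left, ip_smul_right,
      ip_Ad_K h h.w0_mem, ip_Ad_K h hm.1, ← mul_assoc, ← Real.exp_add, ← Real.exp_nat_mul]
    congr 2
    push_cast
    ring

theorem top (j : ℕ) (hj : 0 < j) (hN : ∀ E ∈ h.g j, ∀ u ∈ h.N, Ad ρ u E = E) {E : Mat n}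
    (hE : E ∈ h.g j) (g : G) : ip (cmp w j (Ad ρ g Eᵀ)) (cmp w j (Ad ρ g Eᵀ)) =
      h.bd (h.w0⁻¹ * g * h.w0) ^ (2 * j) * ip E E := by
  have h1 : Ad ρ h.w0⁻¹ Eᵀ ∈ h.g j :=
    ⟨lie_Ad _ (h.tr_mem hE).1, (wt_flip' h (h.tr_mem hE).2).cast (neg_neg _)⟩
  have h2 := low h j hj h1 (hN _ h1) (h.w0⁻¹ * g * h.w0)
  rwa [Ad_mul, Ad_Ad_inv, Ad_mul, cmp_flip, ip_Ad_K h (h.K.inv_mem h.w0_mem),
    ip_Ad_K h (h.K.inv_mem h.w0_mem), ip_tr] at h2

/-- the recursion for the components of `Ad n F` -/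
theorem recur {X Z F : Mat n} {j : ℝ} (hX : X ∈ h.g 1) (hZ : Z ∈ h.g 2) (hF : Wt w (-j) F)
    {Y : Mat n} (hY : Y = Ad ρ (ex ρ (X + Z)) F) (i : ℝ) :
    (i + j) • cmp w i Y = (X * cmp w (i - 1) Y - cmp w (i - 1) Y * X) +
      (2 : ℝ) • (Z * cmp w (i - 2) Y - cmp w (i - 2) Y * Z) := by
  have h1 := congrArg (Ad ρ (ex ρ (X + Z))) hF.comm
  rw [Ad_sub, Ad_mm, Ad_mm, Ad_smul, h.Ad_nn_H hX hZ, ← hY] at h1
  have h2 := congrArg (cmp w i) h1
  simp only [Matrix.sub_mul, Matrix.mul_sub, Matrix.smul_mul, Matrix.mul_smul, cmp_sub, cmp_smul,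
    cmp_mul_left hX.2, cmp_mul_right hX.2, cmp_mul_left hZ.2, cmp_mul_right hZ.2,
    cmp_mul_left (wt_diag w), cmp_mul_right (wt_diag w), sub_zero] at h2
  have h3 := (wt_cmp (w := w) i Y).comm
  rw [add_smul, ← h3, smul_sub]
  rw [neg_smul, ← sub_eq_zero] at h2
  rw [← sub_eq_zero, ← h2]
  abel

theorem be_one (h0 : ∀ Z ∈ h.g 2, Z = 0) {X : Mat n} (hX : X ∈ h.g 1) :
    h.bd (h.w0⁻¹ * ex ρ (X + 0) * h.w0) ^ 2 = (cc w / 4 * ip X X) ^ 2 := by
  by_cases hx : X = 0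
  · rw [hx, add_zero, h.ex_zero, mul_one, inv_mul_cancel, h.bd_P h.P.one_mem, ip_zero_left]
    norm_num
  have hZ := (h.g 2).zero_mem
  have hu := h.nn_mem hX hZ
  have hF : Wt w (-1) Xᵀ := hX.2.tr
  obtain ⟨Y, hY⟩ : ∃ Y, Y = Ad ρ (ex ρ (X + 0)) Xᵀ := ⟨_, rfl⟩
  have a0 : cmp w (-1) Y = Xᵀ := by rw [hY, cmp_Ad_N h hu hF le_rfl, hF.cmp_self]
  have a1 := recur h hX hZ hF hY 0
  have a2 := recur h hX hZ hF hY 1
  rw [zero_sub, a0, h.sl2 hX] at a1
  simp only [Matrix.zero_mul, Matrix.mul_zero, sub_self, smul_zero, add_zero, zero_add,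
    one_smul] at a1 a2
  rw [a1, Matrix.mul_smul, Matrix.smul_mul, ← smul_sub, ← neg_sub, hX.2.comm] at a2
  have a3 : cmp w 1 Y = -(cc w / 4 * ip X X) • X := by
    have := congrArg (fun M => (1 / 2 : ℝ) • M) a2
    simp only [smul_smul] at this
    rw [show (1 / 2 : ℝ) * (1 + 1) = 1 by norm_num, one_smul] at this
    rw [this, cc]
    match_scalars
    ring
  have a4 := top h 1 one_pos (fun E hE u hu => by
    rw [Nat.cast_one] at hE
    rw [← h.N_eq hu, h.Ad_nn_one (h.nX_mem u) (h.nZ_mem u) hE, h0 _ (h.br11 (h.nX_mem u) hE),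
      add_zero]) (E := X) (by rwa [Nat.cast_one]) (ex ρ (X + 0))
  rw [Nat.cast_one, ← hY, a3, ip_smul_left, ip_smul_right] at a4
  refine mul_right_cancel₀ (ip_pos hx).ne' ?_
  rw [← a4]; ring

theorem be_two {E : Mat n} (hE : E ∈ h.g 2) (h1 : ip E E = 1)
    (hg : ∀ Z ∈ h.g 2, Z = ip Z E • E) {X : Mat n} (hX : X ∈ h.g 1) (z : ℝ) :
    h.bd (h.w0⁻¹ * ex ρ (X + z • E) * h.w0) ^ 2 = (cc w / 4 * ip X X) ^ 2 + cc w * z ^ 2 := by
  have hZ := (h.g 2).smul_mem z hE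
  have hu := h.nn_mem hX hZ
  have hF : Wt w (-2) Eᵀ := hE.2.tr
  have hJ := Jy_mem h hE hX
  obtain ⟨Y, hY⟩ : ∃ Y, Y = Ad ρ (ex ρ (X + z • E)) Eᵀ := ⟨_, rfl⟩
  obtain ⟨J, eJ⟩ : ∃ J, J = Jy E X := ⟨_, rfl⟩
  obtain ⟨S, eS⟩ : ∃ S, S = X * Jᵀ - Jᵀ * X := ⟨_, rfl⟩
  have b1 : X * J - J * X = -(cc w * ip X X) • E := eJ ▸ br_Jy h hE hX
  have b2 : E * Jᵀ - Jᵀ * E = -cc w • X := by
    have := Jy_Jy h hE hX
    rwa [h1, mul_one, ← eJ] at this
  have b3 : Sᵀ = -S := eS ▸ eJ ▸ skew_of_ort h hX hJ (ip_Jy_self E X)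
  rw [← eJ] at hJ
  have b4 : S ∈ h.g 0 := eS ▸ h.mem_cast (h.br_mem hX (h.tr_mem hJ)) (by norm_num)
  have b5 : E * S - S * E = 0 := by
    rw [hg _ (h.mem_cast (h.br_mem hE b4) (by norm_num)), ip_sub_left, ip_skew_right b3,
      ip_skew_left b3, sub_self, zero_smul]
  have b6 : S = Xᵀ * J - J * Xᵀ := by
    rw [← neg_neg S, ← b3, eS]
    simp only [transpose_sub, transpose_mul, transpose_transpose, neg_sub]
  have b7 : X * S - S * X = (3 / 2 * cc w * ip X X) • J := by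
    have e : X * S - S * X = ((X * Xᵀ - Xᵀ * X) * J - J * (X * Xᵀ - Xᵀ * X)) +
        (Xᵀ * (X * J - J * X) - (X * J - J * X) * Xᵀ) := by rw [b6]; noncomm_ring
    have e' : Xᵀ * E - E * Xᵀ = -J := by rw [eJ, Jy, neg_sub]
    rw [e, h.sl2 hX, b1, Matrix.mul_smul, Matrix.smul_mul, Matrix.mul_smul, Matrix.smul_mul,
      ← smul_sub, ← smul_sub, hJ.2.comm, e', cc]
    match_scalars
    ring
  have b8 : E * Eᵀ - Eᵀ * E = cc w • diagonal w := by rw [h.sl2 hE, h1, mul_one, cc]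
  have b9 : X * diagonal w - diagonal w * X = -X := by rw [← neg_sub, hX.2.comm, one_smul]
  have b10 : E * diagonal w - diagonal w * E = -(2 : ℝ) • E := by
    rw [← neg_sub, hE.2.comm, neg_smul]
  have a0 : cmp w (-2) Y = Eᵀ := by rw [hY, cmp_Ad_N h hu hF le_rfl, hF.cmp_self]
  have a0' : cmp w (-3) Y = 0 := by
    rw [hY, cmp_Ad_N h hu hF (by norm_num), hF.cmp_ne (by norm_num)]
  have half : ∀ {k : ℝ} {A B : Mat n}, k ≠ 0 → k • A = B → A = k⁻¹ • B := fun hk e => by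
    rw [← e, smul_smul, inv_mul_cancel₀ hk, one_smul]
  have a1 : cmp w (-1) Y = Jᵀ := by
    have := recur h hX hZ hF hY (-1)
    rw [show (-1 : ℝ) - 1 = -2 by norm_num, show (-1 : ℝ) - 2 = -3 by norm_num, a0, a0'] at this
    rw [half (by norm_num) this, eJ, Jy]
    simp only [transpose_sub, transpose_mul, transpose_transpose, Matrix.zero_mul, Matrix.mul_zero,
      sub_self, smul_zero, add_zero]
    norm_num
  have a2 : cmp w 0 Y = (1 / 2 : ℝ) • S + (z * cc w) • diagonal w := by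
    have := recur h hX hZ hF hY 0
    rw [zero_sub, zero_sub, a0, a1, ← eS, Matrix.smul_mul, Matrix.mul_smul, ← smul_sub,
      b8] at this
    rw [half (by norm_num) this]
    match_scalars <;> ring
  have a3 : cmp w 1 Y = (1 / 4 * cc w * ip X X) • J - (z * cc w) • X := by
    have := recur h hX hZ hF hY 1
    have e : X * cmp w 0 Y - cmp w 0 Y * X = (1 / 2 : ℝ) • (X * S - S * X) +
        (z * cc w) • (X * diagonal w - diagonal w * X) := by
      rw [a2]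
      simp only [Matrix.mul_add, Matrix.add_mul, Matrix.mul_smul, Matrix.smul_mul, smul_sub]
      abel
    rw [sub_self, show (1 : ℝ) - 2 = -1 by norm_num, e, a1, Matrix.smul_mul, Matrix.mul_smul,
      ← smul_sub, b2, b7, b9] at this
    rw [half (by norm_num) this]
    match_scalars <;> ring
  have a4 : cmp w 2 Y = -((cc w / 4 * ip X X) ^ 2 + cc w * z ^ 2) • E := by
    have := recur h hX hZ hF hY 2
    have e : X * cmp w 1 Y - cmp w 1 Y * X = (1 / 4 * cc w * ip X X) • (X * J - J * X) := by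
      rw [a3]
      simp only [Matrix.mul_sub, Matrix.sub_mul, Matrix.mul_smul, Matrix.smul_mul, smul_sub]
      abel
    have e' : z • E * cmp w 0 Y - cmp w 0 Y * z • E = (z / 2) • (E * S - S * E) +
        (z * z * cc w) • (E * diagonal w - diagonal w * E) := by
      rw [a2]
      simp only [Matrix.mul_add, Matrix.add_mul, Matrix.mul_smul, Matrix.smul_mul, smul_sub]
      match_scalars <;> ring
    rw [sub_self, show (2 : ℝ) - 1 = 1 by norm_num, e, e', b1, b5, b10] at this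
    rw [half (by norm_num) this]
    match_scalars
    ring
  have a5 := top h 2 two_pos (fun E hE u hu => by
    rw [Nat.cast_ofNat] at hE
    rw [← h.N_eq hu, h.Ad_nn_two (h.nX_mem u) (h.nZ_mem u) hE]) (E := E)
      (by rwa [Nat.cast_ofNat]) (ex ρ (X + z • E))
  rw [Nat.cast_ofNat, ← hY, a4, ip_smul_left, ip_smul_right, h1] at a5
  have := cc_pos h
  refine (pow_left_inj₀ (by positivity) (by positivity) two_ne_zero).1 ?_
  linarith

end Vale.Agent.P092NT
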