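import Vale.Agent.P092NN.Nt0
import Mathlib.Analysis.Matrix.Order
import Mathlib.Analysis.SpecialFunctions.Complex.LogBounds
import Mathlib.Probability.Independence.Basic
import Mathlib.MeasureTheory.Integral.Prod

/-!
P092, rank one (helper32): positive kernels.
-/

set_option linter.all false

open Filter Topology MeasureTheory ProbabilityTheory
open scoped ComplexConjugate MatrixOrder

namespace Vale.Agent.P092NT

section fin

variable {ι κ : Type} [Fintype ι] [Fintype κ]

/-- the Gram kernel -/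
noncomputable def gr (u v : κ → ℂ) : ℂ := ∑ l, conj (u l) * v l

theorem gr_pow (u : ι → κ → ℂ) (m : ℕ) (c : ι → ℂ) :
    0 ≤ (∑ a, ∑ b, conj (c a) * c b * gr (u a) (u b) ^ m).re := by
  induction m generalizing c with
  | zero =>
    simp only [pow_zero, mul_one]
    rw [← Finset.sum_mul_sum, ← map_sum, Complex.conj_mul', ← Complex.ofReal_pow, Complex.ofReal_re]
    positivity
  | succ m ih =>
    have := Finset.sum_nonneg fun l (_ : l ∈ Finset.univ) => ih fun a => c a * u a l
    rw [← Complex.re_sum] at this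
    refine this.trans_eq (congrArg Complex.re ?_)
    rw [Finset.sum_comm]
    refine Finset.sum_congr rfl fun a _ => ?_
    rw [Finset.sum_comm]
    refine Finset.sum_congr rfl fun b _ => ?_
    rw [pow_succ, mul_comm _ (gr (u a) (u b)), ← mul_assoc]
    conv_rhs => rw [gr, Finset.mul_sum, Finset.sum_mul]
    refine Finset.sum_congr rfl fun l _ => ?_
    rw [map_mul, gr]; ring

theorem gr_series (u : ι → κ → ℂ) (c : ι → ℂ) (r : ℕ → ℝ) (hr : ∀ m, 0 ≤ r m) (F : ι → ι → ℂ)
    (hF : ∀ a b, HasSum (fun m => gr (u a) (u b) ^ m * r m) (F a b)) :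
    0 ≤ (∑ a, ∑ b, conj (c a) * c b * F a b).re := by
  have h1 := Complex.reCLM.hasSum (hasSum_sum fun a (_ : a ∈ Finset.univ) =>
    hasSum_sum fun b (_ : b ∈ Finset.univ) => (hF a b).mul_left (conj (c a) * c b))
  refine h1.nonneg fun m => ?_
  have := mul_nonneg (gr_pow u m c) (hr m)
  rw [← Complex.re_mul_ofReal] at this
  simpa only [Complex.reCLM_apply, Finset.sum_mul, mul_assoc] using this

theorem norm_gr_le (u v : κ → ℂ) : 2 * ‖gr u v‖ ≤ ∑ l, ‖u l‖ ^ 2 + ∑ l, ‖v l‖ ^ 2 := by
  refine (mul_le_mul_of_nonneg_left (norm_sum_le _ _) zero_le_two).trans ?_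
  rw [Finset.mul_sum, ← Finset.sum_add_distrib]
  refine Finset.sum_le_sum fun l _ => ?_
  rw [norm_mul, Complex.norm_conj]
  nlinarith [sq_nonneg (‖u l‖ - ‖v l‖)]

theorem sum_sep (c f f' : ι → ℝ) (hc : ∑ a, c a = 0) :
    ∑ a, ∑ b, c a * c b * (f a + f' b) = 0 := by
  have e : ∑ a, ∑ b, c a * c b * (f a + f' b) =
      (∑ a, c a * f a) * ∑ b, c b + (∑ a, c a) * ∑ b, c b * f' b := by
    simp only [Finset.sum_mul_sum, ← Finset.sum_add_distrib]
    exact Finset.sum_congr rfl fun a _ => Finset.sum_congr rfl fun b _ => by ring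
  rw [e, hc, mul_zero, zero_mul, add_zero]

/-- the logarithm of the Siegel domain kernel is conditionally of negative type -/
theorem log_cpd (v : ι → κ → ℂ) (p : ι → ℂ) (hp : ∀ a, ∑ l, ‖v a l‖ ^ 2 < 2 * (p a).re)
    (c : ι → ℝ) (hc : ∑ a, c a = 0) :
    ∑ a, ∑ b, c a * c b * Real.log ‖conj (p a) + p b - gr (v a) (v b)‖ ≤ 0 := by
  have p0 : ∀ a, 0 < (p a).re := fun a => by
    have := (Finset.sum_nonneg fun l (_ : l ∈ Finset.univ) => sq_nonneg ‖v a l‖).trans_lt (hp a)
    linarith
  have p1 : ∀ a, 1 + p a ≠ 0 := fun a e => by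
    have := congrArg Complex.re e
    rw [Complex.add_re, Complex.one_re, Complex.zero_re] at this
    linarith [p0 a]
  let u : ι → Option κ → ℂ := fun a o => o.elim ((1 - p a) / (1 + p a))
    fun l => (√2 : ℝ) * v a l / (1 + p a)
  have s2 : ((√2 : ℝ) : ℂ) * ((√2 : ℝ) : ℂ) = 2 := by
    rw [← Complex.ofReal_mul, Real.mul_self_sqrt zero_le_two, Complex.ofReal_ofNat]
  have e1 : ∀ a b, conj (p a) + p b - gr (v a) (v b) =
      conj (1 + p a) * (1 + p b) / 2 * (1 - gr (u a) (u b)) := fun a b => by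
    have h1 := p1 b
    have h2 : conj (1 + p a) ≠ 0 := (map_ne_zero _).2 (p1 a)
    have h3 : gr (u a) (u b) = (conj (1 - p a) * (1 - p b) + 2 * gr (v a) (v b)) /
        (conj (1 + p a) * (1 + p b)) := by
      simp only [gr, Fintype.sum_option, u, Option.elim, add_div, Finset.mul_sum, Finset.sum_div,
        map_div₀, map_mul, Complex.conj_ofReal]
      congr 1
      · field_simp
      · refine Finset.sum_congr rfl fun l _ => ?_
        rw [← s2]; field_simp
    rw [h3]
    field_simp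
    simp only [map_add, map_sub, map_one]
    ring
  have e2 : ∀ a, ∑ o, ‖u a o‖ ^ 2 < 1 := fun a => by
    have h1 : 0 < ‖1 + p a‖ ^ 2 := pow_pos (norm_pos_iff.2 (p1 a)) 2
    simp only [Fintype.sum_option, u, Option.elim, norm_div, norm_mul, div_pow, mul_pow,
      Complex.norm_real, Real.norm_eq_abs, sq_abs, Real.sq_sqrt zero_le_two, ← Finset.sum_div,
      ← Finset.mul_sum, ← add_div]
    rw [div_lt_one h1, Complex.sq_norm, Complex.sq_norm, Complex.normSq_apply, Complex.normSq_apply]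
    simp only [Complex.add_re, Complex.sub_re, Complex.add_im, Complex.sub_im, Complex.one_re,
      Complex.one_im]
    nlinarith [hp a]
  have e3 : ∀ a b, ‖gr (u a) (u b)‖ < 1 := fun a b => by
    linarith [norm_gr_le (u a) (u b), e2 a, e2 b]
  have e4 := gr_series u (fun a => c a) (fun m => (m : ℝ)⁻¹) (fun m => by positivity)
    (fun a b => -Complex.log (1 - gr (u a) (u b))) fun a b => by
      simpa only [div_eq_mul_inv, Complex.ofReal_inv, Complex.ofReal_natCast] using
        Complex.hasSum_taylorSeries_neg_log (e3 a b)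
  have e5 : ∀ a b, Real.log ‖conj (p a) + p b - gr (v a) (v b)‖ =
      (Real.log ‖1 + p a‖ + (Real.log ‖1 + p b‖ - Real.log 2)) +
        Real.log ‖1 - gr (u a) (u b)‖ := fun a b => by
    have h1 := norm_ne_zero_iff.2 (p1 a)
    have h2 := norm_ne_zero_iff.2 (p1 b)
    have h3 : ‖1 - gr (u a) (u b)‖ ≠ 0 := norm_ne_zero_iff.2 fun e => by
      have := e3 a b
      rw [← sub_eq_zero.1 e, norm_one] at this
      exact lt_irrefl _ this
    rw [e1, norm_mul, norm_div, norm_mul, Complex.norm_conj, Complex.norm_ofNat,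
      Real.log_mul (by positivity) h3, Real.log_div (by positivity) two_ne_zero,
      Real.log_mul h1 h2, add_sub_assoc]
  simp only [e5, mul_add _ (_ + _), Finset.sum_add_distrib]
  rw [sum_sep c _ (fun b => Real.log ‖1 + p b‖ - Real.log 2) hc, zero_add]
  simp only [Complex.re_sum, Complex.conj_ofReal, ← Complex.ofReal_mul, Complex.re_ofReal_mul,
    Complex.neg_re, Complex.log_re, mul_neg, Finset.sum_neg_distrib] at e4
  linarith

/-- Schoenberg -/
theorem exp_pos (N : ι → ι → ℝ) (hs : ∀ a b, N a b = N b a)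
    (hN : ∀ c : ι → ℝ, 0 ≤ ∑ a, ∑ b, c a * c b * N a b) (c : ι → ℂ) :
    0 ≤ (∑ a, ∑ b, conj (c a) * c b * (Real.exp (N a b) : ℝ)).re := by
  classical
  have h1 : (Matrix.of N).PosSemidef := Matrix.PosSemidef.of_dotProduct_mulVec_nonneg
    (Matrix.IsHermitian.ext fun a b => hs b a) fun x => (hN x).trans_eq (by
      simp only [dotProduct, Matrix.mulVec, Finset.mul_sum, star_trivial, Matrix.of_apply]
      exact Finset.sum_congr rfl fun a _ => Finset.sum_congr rfl fun b _ => by ring)
  obtain ⟨B, hB⟩ := CStarAlgebra.nonneg_iff_eq_star_mul_self.mp h1.nonneg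
  refine gr_series (fun a l => (B l a : ℂ)) c (fun m => (m.factorial : ℝ)⁻¹)
    (fun m => by positivity) _ fun a b => ?_
  have e : gr (fun l => (B l a : ℂ)) (fun l => (B l b : ℂ)) = (N a b : ℝ) := by
    have := congrFun (congrFun hB a) b
    rw [Matrix.of_apply, Matrix.mul_apply] at this
    simp only [this, gr, Complex.conj_ofReal, Complex.ofReal_sum, Complex.ofReal_mul,
      Matrix.star_apply, star_trivial]
  rw [e, Complex.ofReal_exp, Complex.exp_eq_exp_ℂ]
  simpa only [div_eq_mul_inv, Complex.ofReal_inv, Complex.ofReal_natCast] using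
    NormedSpace.expSeries_div_hasSum_exp ((N a b : ℝ) : ℂ)

end fin

/-- the integral of a positive kernel is nonnegative -/
theorem integral_psd {Y : Type} [MeasurableSpace Y] (ν : Measure Y) [IsProbabilityMeasure ν]
    (M : Y × Y → ℝ) (h1 : Integrable M (ν.prod ν)) (h2 : Integrable (fun y => M (y, y)) ν)
    (hM : ∀ m (y : Fin m → Y), 0 ≤ ∑ a, ∑ b, M (y a, y b)) : 0 ≤ ∫ q, M q ∂ν.prod ν := by
  have key : ∀ m : ℕ, 0 ≤ (m : ℝ) * ((∫ y, M (y, y) ∂ν - ∫ q, M q ∂ν.prod ν) +
      m * ∫ q, M q ∂ν.prod ν) := by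
    intro m
    have a1 : ∀ a, MeasurePreserving (fun y : Fin m → Y => y a) (Measure.pi fun _ => ν) ν :=
      fun a => measurePreserving_eval _ a
    have a2 : ∀ a b, a ≠ b → MeasurePreserving (fun y : Fin m → Y => (y a, y b))
        (Measure.pi fun _ => ν) (ν.prod ν) := fun a b e => ⟨by fun_prop, by
      have := ((iIndepFun_pi (μ := fun _ : Fin m => ν) (X := fun _ => id)
        fun _ => aemeasurable_id).indepFun e).map_prod_eq_prod_map_map
          (a1 a).aemeasurable (a1 b).aemeasurable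
      rwa [(a1 a).map_eq, (a1 b).map_eq] at this⟩
    have a3 : ∀ a b, Integrable (fun y : Fin m → Y => M (y a, y b)) (Measure.pi fun _ => ν) ∧
        ∫ y, M (y a, y b) ∂(Measure.pi fun _ : Fin m => ν) =
          (if a = b then ∫ y, M (y, y) ∂ν - ∫ q, M q ∂ν.prod ν else 0) + ∫ q, M q ∂ν.prod ν := by
      intro a b
      by_cases e : a = b
      · subst e
        refine ⟨(a1 a).integrable_comp_of_integrable h2, ?_⟩
        rw [if_pos rfl, sub_add_cancel, ← integral_map (f := fun y => M (y, y)) (a1 a).aemeasurable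
          ((a1 a).map_eq.symm ▸ h2.1), (a1 a).map_eq]
      · refine ⟨(a2 a b e).integrable_comp_of_integrable h1, ?_⟩
        rw [if_neg e, zero_add, ← integral_map (a2 a b e).aemeasurable
          ((a2 a b e).map_eq.symm ▸ h1.1), (a2 a b e).map_eq]
    have a4 : 0 ≤ ∫ y, ∑ a, ∑ b, M (y a, y b) ∂(Measure.pi fun _ : Fin m => ν) :=
      integral_nonneg (hM m)
    rw [integral_finset_sum _ fun a _ => integrable_finset_sum _ fun b _ => (a3 a b).1] at a4
    simp only [integral_finset_sum _ fun b _ => (a3 _ b).1, (a3 _ _).2, Finset.sum_add_distrib,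
      Finset.sum_ite_eq, Finset.mem_univ, if_true, Finset.sum_const, Finset.card_univ,
      Fintype.card_fin, nsmul_eq_mul] at a4
    linarith
  by_contra h0
  rw [not_le] at h0
  obtain ⟨m, hm⟩ := exists_nat_gt (max 0 ((∫ y, M (y, y) ∂ν - ∫ q, M q ∂ν.prod ν) /
    (-∫ q, M q ∂ν.prod ν)))
  rw [max_lt_iff, div_lt_iff₀ (by linarith)] at hm
  have := (mul_nonneg_iff_of_pos_left hm.1).1 (key m)
  linarith [hm.2]

open Vale.Agent.P092NN in
/-- functions conditionally of negative type on groups with property (T) are bounded -/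
theorem cnd_bdd {G : Type} [Group G] [TopologicalSpace G] [IsTopologicalGroup G]
    (h : Vale.Agent.P092.UN.KazT G) (ψ : G → ℝ) (hc : Continuous ψ) (h1 : ψ 1 = 0)
    (hs : ∀ g, ψ g⁻¹ = ψ g) (hn : ∀ (ι : Type) [Fintype ι] (g : ι → G) (c : ι → ℝ), ∑ a, c a = 0 →
      ∑ a, ∑ b, c a * c b * ψ ((g a)⁻¹ * g b) ≤ 0) : ∃ C, ∀ g, ψ g ≤ C := by
  obtain ⟨Q, hQ, δ, hδ, h⟩ := nt0 h
  obtain ⟨R, hR⟩ := hQ.bddAbove_image hc.continuousOn
  obtain ⟨t, t0, t1⟩ : ∃ t > 0, t * R ≤ δ := by
    refine ⟨δ / (|R| + 1), by positivity, ?_⟩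
    rw [div_mul_eq_mul_div, div_le_iff₀ (by positivity)]
    nlinarith [le_abs_self R]
  refine ⟨Real.log 2 / t, fun g => ?_⟩
  have := h (fun x => (Real.exp (-(t * ψ x)) : ℝ)) ⟨fun g => by rw [Complex.conj_ofReal, hs],
    fun f => ?_⟩ (Continuous.continuousAt (by fun_prop)) (by simp [h1]) (fun g hg => ?_) g
  · rw [Complex.ofReal_re, ← Real.log_le_iff_le_exp (by norm_num), one_div, Real.log_inv] at this
    rw [le_div_iff₀ t0]; linarith
  · have k := exp_pos (fun a b : f.support => t * (ψ a + ψ b - ψ ((a : G)⁻¹ * b)))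
      (fun a b => by rw [← hs ((a : G)⁻¹ * b), mul_inv_rev, inv_inv, add_comm]) (fun c => ?_)
      fun a => f a * (Real.exp (-(t * ψ a)) : ℝ)
    · refine k.trans_eq (congrArg Complex.re ?_)
      rw [Finsupp.sum, ← Finset.sum_coe_sort f.support]
      refine Finset.sum_congr rfl fun a _ => ?_
      rw [Finsupp.sum, ← Finset.sum_coe_sort f.support]
      refine Finset.sum_congr rfl fun b _ => ?_
      have : Real.exp (-(t * ψ ((a : G)⁻¹ * b))) = Real.exp (-(t * ψ a)) * Real.exp (-(t * ψ b)) *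
          Real.exp (t * (ψ a + ψ b - ψ ((a : G)⁻¹ * b))) := by
        rw [← Real.exp_add, ← Real.exp_add]; congr 1; ring
      rw [this, map_mul, Complex.conj_ofReal, Complex.ofReal_mul, Complex.ofReal_mul]
      ring
    · have k := hn (Option f.support) (fun o => o.elim 1 (↑)) (fun o => o.elim (-∑ a, c a) c)
        (by simp [Fintype.sum_option])
      simp only [Fintype.sum_option, Option.elim, inv_one, one_mul, mul_one, h1, mul_zero, hs,
        zero_add, Finset.sum_add_distrib] at k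
      have e : ∑ a, ∑ b, c a * c b * (t * (ψ a + ψ b - ψ ((a : G)⁻¹ * b))) =
          -t * (∑ x, (c x * -∑ a, c a) * ψ x + (∑ x, (-∑ a, c a) * c x * ψ x +
            ∑ x, ∑ y, c x * c y * ψ ((x : G)⁻¹ * y))) := by
        have e1 : ∑ x, (c x * -∑ a, c a) * ψ x = ∑ x, ∑ y, -(c x * c y * ψ x) := by
          simp only [Finset.sum_neg_distrib, ← Finset.sum_mul, ← Finset.mul_sum, mul_neg, neg_mul]
        have e2 : ∑ x, (-∑ a, c a) * c x * ψ x = ∑ x, ∑ y, -(c x * c y * ψ y) := by
          rw [Finset.sum_comm]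
          simp only [Finset.sum_neg_distrib, ← Finset.sum_mul, ← Finset.mul_sum, mul_neg, neg_mul]
        simp only [e1, e2, ← Finset.sum_add_distrib, Finset.mul_sum]
        exact Finset.sum_congr rfl fun a _ => Finset.sum_congr rfl fun b _ => by ring
      rw [e]
      exact mul_nonneg_of_nonpos_of_nonpos (by linarith) k
  · rw [Complex.ofReal_re]
    have := mul_le_mul_of_nonneg_left (hR ⟨g, hg, rfl⟩) t0.le
    linarith [Real.add_one_le_exp (-(t * ψ g))]

end Vale.Agent.P092NT
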