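import Vale.Agent.P092NT.Form
import Vale.Agent.P092NT.Ker
import Vale.Agent.P092RG.Cell
import Vale.Agent.P092RG.QuoM
import Mathlib.MeasureTheory.Integral.Layercake
import Mathlib.MeasureTheory.Integral.ExpDecay

/-!
P092, rank one (helper32): a real rank one group with property (T) has a long root of
multiplicity at least two.
-/

set_option linter.all false

open Matrix Filter Topology MeasureTheory
open scoped ComplexConjugate ENNReal

namespace Vale.Agent.P092NT

open Vale.Agent.P092.H793.Re Vale.Agent.P092RG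
open Vale.Agent.P092RK (Jy cc cc_pos Jy_mem Jy_Jy ip_Jy ip_Jy_self ip_Jy_Jy emb emb_mem)

variable {n : ℕ} {G : Type} [Group G] [TopologicalSpace G]
variable {ρ : G →* SLn n} {w : Fin n → ℝ}

/-- complex coordinates -/
noncomputable def cx (A B : Mat n) : Fin n × Fin n → ℂ := fun l => ⟨A l.1 l.2, B l.1 l.2⟩

theorem gr_cx (A B A' B' : Mat n) :
    gr (cx A B) (cx A' B') = ⟨ip A A' + ip B B', ip A B' - ip B A'⟩ := by
  refine Complex.ext ?_ ?_ <;>
    simp [gr, cx, ip_eq, Fintype.sum_prod_type, Finset.sum_add_distrib, sub_eq_add_neg]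

theorem gr_self {κ : Type} [Fintype κ] (u : κ → ℂ) : ∑ l, ‖u l‖ ^ 2 = (gr u u).re := by
  simp only [gr, Complex.conj_mul', Complex.re_sum, ← Complex.ofReal_pow, Complex.ofReal_re]

variable (h : R1 ρ w)
include h

/-- a Siegel domain model of the pairing -/
structure Sgl (v : h.EN → Fin n × Fin n → ℂ) (π : h.EN → ℂ) : Prop where
  cv : Continuous fun q : h.EN × h.EN => gr (v q.1) (v q.2)
  cp : Continuous π
  dg : ∀ p, ∑ l, ‖v p l‖ ^ 2 = 2 * (π p).re
  eq : ∀ p q, h.bd ((h.nE p * h.w0)⁻¹ * (h.nE q * h.w0)) = ‖conj (π p) + π q - gr (v p) (v q)‖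

theorem sgl_of {E : Mat n} {α : ℝ} (hE : E ∈ h.g 2) (h1 : α ^ 2 + cc w / 4 * ip E E = cc w / 2)
    (h2 : α • E = (√(cc w) / 2) • E) (h3 : ∀ X ∈ h.g 1, ∀ Z ∈ h.g 2,
      h.bd (h.w0⁻¹ * ex ρ (X + Z) * h.w0) ^ 2 = (cc w / 4 * ip X X) ^ 2 + cc w * ip E Z ^ 2) :
    ∃ v π, Sgl h v π := by
  have c0 := cc_pos h
  have k1 : ∀ X X', ip X (Jy E X') = -ip (Jy E X) X' := fun X X' => by
    rw [ip_comm, ip_Jy, ip_Jy, ← ip_neg_right, neg_sub, neg_neg]
  have k2 : ∀ X, ∀ X' ∈ h.g 1, ip (Jy E X) (Jy E X') = cc w * ip E E * ip X X' := fun X X' hX' => by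
    have := k1 (Jy E X') X
    rw [Jy_Jy h hE hX', ip_smul_left, ip_comm, ip_comm X'] at this
    linarith
  have k3 : ∀ X X', α * ip (Jy E X) X' = -(√(cc w) / 2 * ip E (X * X' - X' * X)) := fun X X' => by
    rw [ip_Jy, mul_neg, ← ip_smul_left, h2, ip_smul_left]
  have k4 : ∀ X, ∀ X' ∈ h.g 1, gr (cx (α • X) ((1 / 2 : ℝ) • Jy E X))
      (cx (α • X') ((1 / 2 : ℝ) • Jy E X')) =
        ⟨cc w / 2 * ip X X', √(cc w) / 2 * ip E (X * X' - X' * X)⟩ := fun X X' hX' => by
    rw [gr_cx]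
    simp only [ip_smul_left, ip_smul_right, k2 X X' hX', k1 X X']
    congr 1
    · linear_combination ip X X' * h1
    · linear_combination (-1 : ℝ) * k3 X X'
  have e1 := h.continuous_e1
  have e2 := h.continuous_e2
  refine ⟨fun p => cx (α • h.e1 p.1) ((1 / 2 : ℝ) • Jy E (h.e1 p.1)),
    fun p => ⟨cc w / 4 * ip (h.e1 p.1) (h.e1 p.1), √(cc w) * ip E (emb h p.2)⟩, ?_, ?_,
    fun p => ?_, fun p q => ?_⟩
  · simp only [k4 _ _ (h.e1_mem _), Complex.mk_eq_add_mul_I]
    have a1 : Continuous fun q : h.EN × h.EN => h.e1 q.1.1 := by fun_prop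
    have a2 : Continuous fun q : h.EN × h.EN => h.e1 q.2.1 := by fun_prop
    have a3 := continuous_ip a1 a2
    have a4 := continuous_ip (continuous_const (y := E))
      ((a1.matrix_mul a2).sub (a2.matrix_mul a1))
    fun_prop
  · simp only [Complex.mk_eq_add_mul_I]
    have a1 : Continuous fun q : h.EN => h.e1 q.1 := by fun_prop
    have a2 : Continuous fun q : h.EN => emb h q.2 := by fun_prop
    have a3 := continuous_ip a1 a1
    have a4 := continuous_ip (continuous_const (y := E)) a2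
    fun_prop
  · rw [gr_self, k4 _ _ (h.e1_mem _)]; ring
  · have e : (h.nE p * h.w0)⁻¹ * (h.nE q * h.w0) = h.w0⁻¹ * h.nE (h.mulE (-p) q) * h.w0 := by
      rw [← h.nE_mul, h.nE_neg]; group
    refine (pow_left_inj₀ (h.bd_nonneg _) (norm_nonneg _) two_ne_zero).1 ?_
    rw [e, R1.nE, h3 _ (h.e1_mem _) _ (emb_mem h _), k4 _ _ (h.e1_mem _), Complex.sq_norm,
      Complex.normSq_apply]
    simp only [R1.mulE, map_add, map_smul, h.e2_br, Prod.fst_neg, Prod.snd_neg, map_neg,
      ip_add_left, ip_add_right, ip_neg_left, ip_neg_right, ip_smul_right, ip_sub_right,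
      Matrix.neg_mul, Matrix.mul_neg, Complex.sub_re, Complex.add_re, Complex.conj_re,
      Complex.sub_im, Complex.add_im, Complex.conj_im, ip_comm (h.e1 q.1) (h.e1 p.1)]
    have := Real.mul_self_sqrt c0.le
    linear_combination (-(-ip E (emb h p.2) + ip E (emb h q.2) - (1 / 2) *
      (ip E (h.e1 p.1 * h.e1 q.1) - ip E (h.e1 q.1 * h.e1 p.1))) ^ 2) * this

theorem exists_sgl (hm : h.m2 ≤ 1) : ∃ v π, Sgl h v π := by
  have c0 := cc_pos h
  rcases Nat.le_one_iff_eq_zero_or_eq_one.1 hm with e | e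
  · have h0 : ∀ Z ∈ h.g 2, Z = 0 := fun Z hZ => by
      rwa [Submodule.finrank_eq_zero.1 e, Submodule.mem_bot] at hZ
    refine sgl_of h (E := 0) (α := √(cc w / 2)) (h.g 2).zero_mem
      (by rw [ip_zero_left, Real.sq_sqrt (by positivity)]; ring) (by simp) fun X hX Z hZ => ?_
    rw [h0 Z hZ, be_one h h0 hX, ip_zero_left]; ring
  · obtain ⟨⟨V, hV⟩, v0, hv⟩ := finrank_eq_one_iff'.1 e
    have hp := ip_pos (X := V) fun e => v0 (Subtype.ext e)
    obtain ⟨E, hE, e1, e2⟩ : ∃ E ∈ h.g 2, ip E E = 1 ∧ ∀ Z ∈ h.g 2, ∃ c : ℝ, Z = c • E := by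
      refine ⟨(√(ip V V))⁻¹ • V, (h.g 2).smul_mem _ hV, ?_, fun Z hZ => ?_⟩
      · rw [ip_smul_left, ip_smul_right, ← mul_assoc, ← mul_inv, Real.mul_self_sqrt hp.le,
          inv_mul_cancel₀ hp.ne']
      · obtain ⟨c, hc⟩ := hv ⟨Z, hZ⟩
        refine ⟨c * √(ip V V), ?_⟩
        rw [smul_smul, mul_inv_cancel_right₀ (Real.sqrt_pos.2 hp).ne']
        exact (congrArg Subtype.val hc).symm
    refine sgl_of h hE (α := √(cc w) / 2) (by rw [e1, div_pow, Real.sq_sqrt c0.le]; ring) rfl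
      fun X hX Z hZ => ?_
    obtain ⟨c, rfl⟩ := e2 Z hZ
    rw [be_two h hE e1 (fun Z hZ => ?_) hX, ip_smul_right, e1, mul_one]
    obtain ⟨c, rfl⟩ := e2 Z hZ
    rw [ip_smul_left, e1, mul_one]

/-- the logarithmic kernel on the boundary -/
noncomputable def lg (y y' : h.Y) : ℝ := -Real.log (h.dv y y')

theorem lg_nonneg (y y' : h.Y) : 0 ≤ lg h y y' :=
  neg_nonneg.2 (Real.log_nonpos (h.dv_nonneg _ _) (h.dv_le_one _ _))

theorem lg_comm (y y' : h.Y) : lg h y y' = lg h y' y := by rw [lg, h.dv_comm, lg]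

theorem lg_smul (g : G) {y y' : h.Y} (e : y ≠ y') :
    lg h (g • y) (g • y') = lg h y y' + h.co g y + h.co g y' := by
  rw [lg, h.dv_smul, Real.log_mul (Real.exp_pos _).ne' (h.dv_pos e).ne', Real.log_exp, lg]; ring

theorem dv_cell (p q : h.EN) : h.bd ((h.nE p * h.w0)⁻¹ * (h.nE q * h.w0)) =
    Real.exp (lg h h.y0 (h.cell p) + lg h h.y0 (h.cell q)) * h.dv (h.cell p) (h.cell q) := by
  rw [lg, lg, h.dv_y0_cell, h.dv_y0_cell, Real.log_exp, Real.log_exp, neg_neg, neg_neg, ← h.dd_mk,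
    h.dd_eq]
  rfl

/-- the regularised kernel -/
noncomputable def rg (v : h.EN → Fin n × Fin n → ℂ) (π : h.EN → ℂ) (δ : ℝ) (y y' : h.Y) : ℝ :=
  lg h h.y0 y + lg h h.y0 y' -
    Real.log ‖conj (π (h.lc y)) + π (h.lc y') - gr (v (h.lc y)) (v (h.lc y')) + δ‖

section rg

variable {h} {v : h.EN → Fin n × Fin n → ℂ} {π : h.EN → ℂ} (S : Sgl h v π)
include S

theorem Sgl.re_nonneg (p q : h.EN) : 0 ≤ (conj (π p) + π q - gr (v p) (v q)).re := by
  have := norm_gr_le (v p) (v q)
  rw [S.dg, S.dg] at this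
  rw [Complex.sub_re, Complex.add_re, Complex.conj_re]
  linarith [Complex.re_le_norm (gr (v p) (v q))]

theorem Sgl.cpd {δ : ℝ} (hδ : 0 < δ) {ι : Type} [Fintype ι] (y : ι → h.Y) (c : ι → ℝ)
    (hc : ∑ a, c a = 0) : 0 ≤ ∑ a, ∑ b, c a * c b * rg h v π δ (y a) (y b) := by
  have := log_cpd (fun a => v (h.lc (y a))) (fun a => π (h.lc (y a)) + (δ / 2 : ℝ)) (fun a => by
    rw [S.dg, Complex.add_re, Complex.ofReal_re]; linarith) c hc
  simp only [rg, mul_sub, Finset.sum_sub_distrib]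
  rw [sum_sep c _ (fun b => lg h h.y0 (y b)) hc, zero_sub, neg_nonneg]
  refine le_of_eq_of_le (Finset.sum_congr rfl fun a _ => Finset.sum_congr rfl fun b _ => ?_) this
  congr 3
  rw [map_add, Complex.conj_ofReal]
  push_cast
  ring

theorem Sgl.bnd {δ : ℝ} (hδ : δ ∈ Set.Ioc (0 : ℝ) 1) {y y' : h.Y} (hy : y ≠ h.y0)
    (hy' : y' ≠ h.y0) : -Real.log 2 ≤ rg h v π δ y y' ∧
      rg h v π δ y y' ≤ lg h h.y0 y + lg h h.y0 y' - Real.log δ ∧
      (y ≠ y' → rg h v π δ y y' ≤ lg h y y') := by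
  obtain ⟨p, rfl⟩ := h.exists_cell hy
  obtain ⟨q, rfl⟩ := h.exists_cell hy'
  have a1 := S.re_nonneg p q
  have a2 := (S.eq p q).symm.trans (dv_cell h p q)
  simp only [rg, h.lc_cell]
  generalize conj (π p) + π q - gr (v p) (v q) = B at a1 a2
  have a0 := add_nonneg (lg_nonneg h h.y0 (h.cell p)) (lg_nonneg h h.y0 (h.cell q))
  generalize lg h h.y0 (h.cell p) + lg h h.y0 (h.cell q) = s at a0 a2
  have a3 : δ ≤ ‖B + δ‖ := le_trans (by simpa using a1) (Complex.re_le_norm _)
  have a4 : ‖B‖ ≤ ‖B + δ‖ := by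
    refine (pow_le_pow_iff_left₀ (norm_nonneg _) (norm_nonneg _) two_ne_zero).1 ?_
    rw [Complex.sq_norm, Complex.sq_norm, Complex.normSq_apply, Complex.normSq_apply]
    simp only [Complex.add_re, Complex.add_im, Complex.ofReal_re, Complex.ofReal_im, add_zero]
    nlinarith [hδ.1]
  have a5 : ‖B + δ‖ ≤ Real.exp s * 2 := by
    refine (norm_add_le _ _).trans ?_
    rw [a2, Complex.norm_real, Real.norm_of_nonneg hδ.1.le]
    nlinarith [h.dv_le_one (h.cell p) (h.cell q), Real.one_le_exp a0, hδ.2]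
  refine ⟨?_, by linarith [Real.log_le_log hδ.1 a3], fun e => ?_⟩
  · have := Real.log_le_log (hδ.1.trans_le a3) a5
    rw [Real.log_mul (Real.exp_pos _).ne' two_ne_zero, Real.log_exp] at this
    linarith
  · have b := h.dv_pos e
    have := Real.log_le_log (by rw [a2]; positivity) a4
    rw [a2, Real.log_mul (Real.exp_pos _).ne' b.ne', Real.log_exp] at this
    rw [lg]; linarith

theorem Sgl.lim {y y' : h.Y} (hy : y ≠ h.y0) (hy' : y' ≠ h.y0) (e : y ≠ y') :
    Tendsto (fun k : ℕ => rg h v π (1 / ((k : ℝ) + 1)) y y') atTop (𝓝 (lg h y y')) := by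
  obtain ⟨p, rfl⟩ := h.exists_cell hy
  obtain ⟨q, rfl⟩ := h.exists_cell hy'
  have a2 := (S.eq p q).symm.trans (dv_cell h p q)
  have b := h.dv_pos e
  simp only [rg, h.lc_cell]
  generalize conj (π p) + π q - gr (v p) (v q) = B at a2
  generalize lg h h.y0 (h.cell p) + lg h h.y0 (h.cell q) = s at a2
  have a3 := ((((Complex.continuous_ofReal.tendsto 0).comp
    tendsto_one_div_add_atTop_nhds_zero_nat).const_add B).norm.log (by
      rw [Complex.ofReal_zero, add_zero, a2]; positivity)).const_sub s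
  rwa [Complex.ofReal_zero, add_zero, a2, Real.log_mul (Real.exp_pos _).ne' b.ne', Real.log_exp,
    sub_add_cancel_left] at a3

end rg

variable [IsTopologicalGroup G] [SecondCountableTopology G] [MeasurableSpace G] [BorelSpace G]

theorem measurable_lg : Measurable fun q : h.Y × h.Y => lg h q.1 q.2 :=
  (Real.measurable_log.comp h.continuous_dv.measurable).neg

theorem lint_lg : ∃ C : ℝ≥0∞, C < ∞ ∧ ∀ y, ∫⁻ y', ENNReal.ofReal (lg h y y') ∂h.νY ≤ C := by
  obtain ⟨C, hC⟩ := h.νY_ball_le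
  have hQ : (0 : ℝ) < h.Q / 2 := half_pos (by exact_mod_cast h.Q_pos)
  refine ⟨∫⁻ t in Set.Ioi (0 : ℝ), ‖Real.exp C * Real.exp (-(h.Q / 2) * t)‖ₑ,
    ((exp_neg_integrableOn_Ioi 0 hQ).const_mul _).2, fun y => ?_⟩
  rw [lintegral_eq_lintegral_meas_le _ (Eventually.of_forall (lg_nonneg h y))
    ((measurable_lg h).comp measurable_prodMk_left).aemeasurable]
  refine setLIntegral_mono' measurableSet_Ioi fun t ht => ?_
  refine (measure_mono fun y' hy' => ?_).trans ((hC y (t / 2)).trans_eq ?_)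
  · have h1 : t ≤ -Real.log (h.dv y y') := hy'
    exact Real.le_exp_of_log_le (show Real.log (h.dv y y') ≤ _ by linarith)
  · rw [eo, Real.enorm_eq_ofReal (by positivity), ← Real.exp_add]
    congr 2
    ring

theorem lint_smul (g : G) {F : h.Y → ℝ≥0∞} (hF : Measurable F) :
    ∫⁻ y, F (g • y) ∂h.νY ≤ (∫⁻ y, F y ∂h.νY) * eo (h.Q * h.rr g⁻¹) := by
  rw [h.conformalY g hF, ← lintegral_mul_const _ hF]
  refine lintegral_mono fun y => mul_le_mul' le_rfl (eo_mono ?_)
  rw [← mul_neg]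
  exact mul_le_mul_of_nonneg_left (neg_le.1 (abs_le.1 (h.abs_co_le _ _)).1) (Nat.cast_nonneg _)

theorem int_lg (g : G) (y : h.Y) : Integrable (fun y' => lg h y (g • y')) h.νY := by
  obtain ⟨C, h1, h2⟩ := lint_lg h
  have m := (measurable_lg h).comp (measurable_prodMk_left (x := y))
  refine ⟨(m.comp (h.measurable_smulY g)).aestronglyMeasurable, ?_⟩
  rw [hasFiniteIntegral_iff_ofReal (Eventually.of_forall fun _ => lg_nonneg h _ _)]
  exact ((lint_smul h g m.ennreal_ofReal).trans (mul_le_mul' (h2 y) le_rfl)).trans_lt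
    (ENNReal.mul_lt_top h1 (eo_ne_top _).lt_top)

theorem int_lg₂ (g g' : G) :
    Integrable (fun q : h.Y × h.Y => lg h (g • q.1) (g' • q.2)) (h.νY.prod h.νY) := by
  obtain ⟨C, h1, h2⟩ := lint_lg h
  have m : Measurable fun q : h.Y × h.Y => lg h (g • q.1) (g' • q.2) :=
    (measurable_lg h).comp ((h.measurable_smulY g).prodMap (h.measurable_smulY g'))
  refine ⟨m.aestronglyMeasurable, ?_⟩
  rw [hasFiniteIntegral_iff_ofReal (Eventually.of_forall fun _ => lg_nonneg h _ _),
    lintegral_prod _ m.ennreal_ofReal.aemeasurable]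
  refine (lintegral_mono fun y => (lint_smul h g' (F := fun y' => ENNReal.ofReal (lg h (g • y) y'))
    ((measurable_lg h).comp measurable_prodMk_left).ennreal_ofReal).trans
      (mul_le_mul' (h2 _) le_rfl)).trans_lt ?_
  rw [lintegral_const, measure_univ, mul_one]
  exact ENNReal.mul_lt_top h1 (eo_ne_top _).lt_top

theorem ae_ne (g : G) (y : h.Y) : ∀ᵐ y' ∂h.νY, g • y' ≠ y := by
  filter_upwards [Measure.ae_ne h.νY (g⁻¹ • y)] with y' hy' e
  exact hy' (by rw [← e, inv_smul_smul])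

/-- the mean of the Busemann cocycle -/
noncomputable def am (g : G) : ℝ := ∫ y, h.co g y ∂h.νY

theorem int_co (g : G) : Integrable (h.co g) h.νY :=
  .of_bound (h.measurable_co g).aestronglyMeasurable _ (Eventually.of_forall (h.abs_co_le g))

theorem continuous_am : Continuous (am h) := continuous_iff_continuousAt.2 fun g =>
  continuousAt_of_dominated (bound := fun _ => h.rr g + 1)
    (Eventually.of_forall fun x => (int_co h x).1)
    ((h.continuous_rr.continuousAt.eventually (gt_mem_nhds (lt_add_one _))).mono fun x hx =>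
      Eventually.of_forall fun y => (h.abs_co_le x y).trans hx.le) (integrable_const _)
    (Eventually.of_forall fun y =>
      (h.continuous_co.comp (f := fun x => (x, y)) (by fun_prop)).continuousAt)

theorem integral_lg (y : h.Y) : ∫ y', lg h y y' ∂h.νY = ∫ y', lg h h.y0 y' ∂h.νY := by
  obtain ⟨κ, hκ, rfl⟩ := h.exists_K y
  conv_lhs => rw [← h.νY_K hκ]
  rw [integral_map (f := fun y' => lg h κ y') (h.measurable_smulY κ).aemeasurable
    ((measurable_lg h).comp measurable_prodMk_left).aestronglyMeasurable, ← h.smul_y0]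
  simp only [lg, h.dv_K_smul hκ]

theorem integral_lg₂ (g g' : G) : ∫ q, lg h (g • q.1) (g' • q.2) ∂h.νY.prod h.νY =
    (∫ y', lg h h.y0 y' ∂h.νY + am h g + am h g') - am h (g'⁻¹ * g) := by
  rw [integral_prod _ (int_lg₂ h g g')]
  have e : ∀ y, ∫ y', lg h (g • y) (g' • y') ∂h.νY =
      (∫ y', lg h h.y0 y' ∂h.νY + am h g') + (h.co g y - h.co (g'⁻¹ * g) y) := fun y => by
    have e1 : g • y = g' • (g'⁻¹ * g) • y := by rw [← mul_smul, mul_inv_cancel_left]
    have e2 := h.co_mul g' (g'⁻¹ * g) y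
    rw [mul_inv_cancel_left] at e2
    have e3 := int_lg h 1 ((g'⁻¹ * g) • y)
    simp only [one_smul] at e3
    rw [integral_congr_ae (g := fun y' => (lg h ((g'⁻¹ * g) • y) y' + h.co g' y') +
      h.co g' ((g'⁻¹ * g) • y)) ((Measure.ae_ne h.νY ((g'⁻¹ * g) • y)).mono fun y' hy' => by
        rw [e1]; beta_reduce; rw [lg_smul h g' hy'.symm]; ring),
      integral_add (f := fun y' => lg h ((g'⁻¹ * g) • y) y' + h.co g' y') (e3.add (int_co h g'))
        (integrable_const _), integral_add e3 (int_co h g'),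
      integral_lg, integral_const, e2]
    simp [am]
  simp only [e]
  rw [integral_add (g := fun y => h.co g y - h.co (g'⁻¹ * g) y) (integrable_const _)
    ((int_co h _).sub (int_co h _)),
    integral_sub (int_co h _) (int_co h _), integral_const]
  simp only [am, probReal_univ, one_smul]
  ring

theorem am_one : am h 1 = 0 := by simp [am, h.co_of_K h.K.one_mem]

theorem am_inv (g : G) : am h g⁻¹ = am h g := by
  have h1 := integral_lg₂ h g 1
  have h2 := integral_lg₂ h 1 g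
  rw [← integral_prod_swap] at h1
  simp only [Prod.fst_swap, Prod.snd_swap, lg_comm h (g • _), h2, inv_one, one_mul, mul_one] at h1
  linarith

theorem le_am (s : ℝ) : s - ∫ y', lg h h.y0 y' ∂h.νY ≤ am h (h.a s) := by
  have e3 := int_lg h 1 h.y1
  simp only [one_smul] at e3
  have := integral_mono_ae ((integrable_const s).sub e3) (int_co h (h.a s))
    ((Measure.ae_ne h.νY h.y1).mono fun y hy => by
      have a := Real.log_le_log (mul_pos (Real.exp_pos s) (h.dv_pos hy.symm)) (h.exp_co_a s y)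
      rw [Real.log_mul (Real.exp_pos _).ne' (h.dv_pos hy.symm).ne', Real.log_exp,
        Real.log_exp] at a
      simpa [lg] using a)
  rw [integral_sub' (integrable_const s) e3, integral_lg] at this
  simpa [am] using this

theorem ae_three (x x' : G) : ∀ᵐ q ∂h.νY.prod h.νY,
    x • q.1 ≠ h.y0 ∧ x' • q.2 ≠ h.y0 ∧ x • q.1 ≠ x' • q.2 := by
  refine (Measure.quasiMeasurePreserving_fst.ae (ae_ne h x _)).and
    ((Measure.quasiMeasurePreserving_snd.ae (ae_ne h x' _)).and ?_)
  refine (Measure.ae_prod_iff_ae_ae ?_).2 (Eventually.of_forall fun y =>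
    (ae_ne h x' (x • y)).mono fun y' e => e.symm)
  exact (isClosed_eq ((continuous_const_smul x).comp continuous_fst)
    ((continuous_const_smul x').comp continuous_snd)).measurableSet.compl

section fin

variable {h} {v : h.EN → Fin n × Fin n → ℂ} {π : h.EN → ℂ} (S : Sgl h v π) {δ : ℝ}
include S

theorem Sgl.meas (x x' : G) :
    Measurable fun q : h.Y × h.Y => rg h v π δ (x • q.1) (x' • q.2) := by
  have m1 : Measurable fun y => lg h h.y0 y := (measurable_lg h).comp measurable_prodMk_left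
  have m2 : Continuous fun q : h.EN × h.EN => ‖conj (π q.1) + π q.2 - gr (v q.1) (v q.2) + δ‖ :=
    ((((Complex.continuous_conj.comp (S.cp.comp continuous_fst)).add
      (S.cp.comp continuous_snd)).sub S.cv).add continuous_const).norm
  have m4 : Measurable fun q : h.Y × h.Y => (h.lc (x • q.1), h.lc (x' • q.2)) :=
    (h.measurable_lc.comp ((h.measurable_smulY x).comp measurable_fst)).prodMk
      (h.measurable_lc.comp ((h.measurable_smulY x').comp measurable_snd))
  have m5 := (m2.measurable.comp m4).log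
  have m6 := (m1.comp ((h.measurable_smulY x).comp measurable_fst)).add
    (m1.comp ((h.measurable_smulY x').comp (measurable_snd (α := h.Y))))
  have m7 := m6.sub m5
  simp only [Function.comp_def] at m7
  simp only [rg]
  exact m7

theorem Sgl.dom (hδ : δ ∈ Set.Ioc (0 : ℝ) 1) (x x' : G) : ∀ᵐ q ∂h.νY.prod h.νY,
    ‖rg h v π δ (x • q.1) (x' • q.2)‖ ≤ lg h (x • q.1) (x' • q.2) + Real.log 2 :=
  (ae_three h x x').mono fun q hq => by
    obtain ⟨b1, -, b3⟩ := S.bnd hδ hq.1 hq.2.1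
    exact abs_le.2 ⟨by linarith [lg_nonneg h (x • q.1) (x' • q.2)],
      by linarith [b3 hq.2.2, Real.log_nonneg one_le_two]⟩

theorem Sgl.int₂ (hδ : δ ∈ Set.Ioc (0 : ℝ) 1) (x x' : G) :
    Integrable (fun q : h.Y × h.Y => rg h v π δ (x • q.1) (x' • q.2)) (h.νY.prod h.νY) :=
  ((int_lg₂ h x x').add (integrable_const _)).mono' (S.meas x x').aestronglyMeasurable
    (S.dom hδ x x')

theorem Sgl.int₁ (hδ : δ ∈ Set.Ioc (0 : ℝ) 1) (x x' : G) :
    Integrable (fun y : h.Y => rg h v π δ (x • y) (x' • y)) h.νY := by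
  refine (((int_lg h x h.y0).add (int_lg h x' h.y0)).add (integrable_const
    (Real.log 2 - Real.log δ))).mono'
      ((S.meas x x').comp (measurable_id.prodMk measurable_id)).aestronglyMeasurable ?_
  filter_upwards [ae_ne h x h.y0, ae_ne h x' h.y0] with y e e'
  obtain ⟨b1, b2, -⟩ := S.bnd hδ e e'
  have := Real.log_nonpos hδ.1.le hδ.2
  simp only [Pi.add_apply]
  exact abs_le.2 ⟨by linarith [lg_nonneg h h.y0 (x • y), lg_nonneg h h.y0 (x' • y)],
    by linarith [Real.log_nonneg one_le_two]⟩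

theorem Sgl.pos (hδ : δ ∈ Set.Ioc (0 : ℝ) 1) {ι : Type} [Fintype ι] (g : ι → G) (c : ι → ℝ)
    (hc : ∑ a, c a = 0) : 0 ≤ ∑ a, ∑ b, c a * c b *
      ∫ q, rg h v π δ (g a • q.1) (g b • q.2) ∂h.νY.prod h.νY := by
  have := integral_psd h.νY (fun q => ∑ a, ∑ b, c a * c b * rg h v π δ (g a • q.1) (g b • q.2))
    (integrable_finset_sum _ fun a _ => integrable_finset_sum _ fun b _ =>
      (S.int₂ hδ _ _).const_mul _)
    (integrable_finset_sum _ fun a _ => integrable_finset_sum _ fun b _ =>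
      (S.int₁ hδ _ _).const_mul _)
    fun m y => by
      have := S.cpd hδ.1 (fun j : Fin m × ι => g j.2 • y j.1) (fun j => c j.2)
        (by simp [Fintype.sum_prod_type, hc])
      simp only [Fintype.sum_prod_type] at this
      exact this.trans_eq (Finset.sum_congr rfl fun i _ => Finset.sum_comm)
  rw [integral_finset_sum _ fun a _ => integrable_finset_sum _ fun b _ =>
    (S.int₂ hδ _ _).const_mul _] at this
  refine this.trans_eq (Finset.sum_congr rfl fun a _ => ?_)
  rw [integral_finset_sum _ fun b _ => (S.int₂ hδ _ _).const_mul _]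
  exact Finset.sum_congr rfl fun b _ => integral_const_mul _ _

end fin

theorem am_cnd (hm : h.m2 ≤ 1) (ι : Type) [Fintype ι] (g : ι → G) (c : ι → ℝ)
    (hc : ∑ a, c a = 0) : ∑ a, ∑ b, c a * c b * am h ((g a)⁻¹ * g b) ≤ 0 := by
  obtain ⟨v, π, S⟩ := exists_sgl h hm
  have hd : ∀ k : ℕ, 1 / ((k : ℝ) + 1) ∈ Set.Ioc (0 : ℝ) 1 := fun k =>
    ⟨by positivity, by rw [div_le_one (by positivity)]; linarith [Nat.cast_nonneg (α := ℝ) k]⟩
  have lim : ∀ x x' : G, Tendsto (fun k : ℕ => ∫ q, rg h v π (1 / ((k : ℝ) + 1)) (x • q.1)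
      (x' • q.2) ∂h.νY.prod h.νY) atTop (𝓝 (∫ q, lg h (x • q.1) (x' • q.2) ∂h.νY.prod h.νY)) :=
    fun x x' => tendsto_integral_of_dominated_convergence _
      (fun k => (S.meas x x').aestronglyMeasurable) ((int_lg₂ h x x').add (integrable_const _))
      (fun k => S.dom (hd k) x x') ((ae_three h x x').mono fun q hq => S.lim hq.1 hq.2.1 hq.2.2)
  have pos := ge_of_tendsto' (tendsto_finset_sum Finset.univ fun a _ =>
    tendsto_finset_sum Finset.univ fun b _ => (lim (g a) (g b)).const_mul (c a * c b))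
    fun k => S.pos (hd k) g c hc
  simp only [integral_lg₂, mul_sub, Finset.sum_sub_distrib] at pos
  rw [sum_sep c _ (fun b => am h (g b)) hc, Finset.sum_comm, zero_sub, neg_nonneg] at pos
  exact le_of_eq_of_le (Finset.sum_congr rfl fun a _ => Finset.sum_congr rfl fun b _ => by
    rw [mul_comm (c a)]) pos

omit [IsTopologicalGroup G] [SecondCountableTopology G] [MeasurableSpace G] [BorelSpace G] in
/-- **NT-R**: property (T) forces the long root to have multiplicity at least two -/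
theorem two_le_m2 (hT : Vale.Agent.P092.UN.KazT G) : 2 ≤ h.m2 := by
  haveI := topGroup h.rs.emb
  haveI := secCount h.rs.emb
  borelize G
  by_contra h0
  obtain ⟨C, hC⟩ := cnd_bdd hT (am h) (continuous_am h) (am_one h) (am_inv h)
    (am_cnd h (by omega))
  linarith [hC (h.a (C + 1 + ∫ y', lg h h.y0 y' ∂h.νY)),
    le_am h (C + 1 + ∫ y', lg h h.y0 y' ∂h.νY)]

end Vale.Agent.P092NT
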